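import Vale.Agent.P026.AG.Final
import Vale.Agent.P026.AG.Fwd2

/-!
# P026: averages of Goldbach functions and the quasi-Riemann hypothesis

For every `k ≥ 1` the exponent of the error term in the average of the `k`-fold Goldbach function
is exactly `k - 1 + Θ`; the same holds for all residue classes modulo a squarefree `q` and the
zeros of all Dirichlet `L`-functions modulo `q`, and questions Q1 and Q2 of P026 are equivalent to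
power savings in these averages.
-/

open Vale.Agent.P026.AG

namespace Vale.Agent.Results.P026.AverageGoldbach

theorem result (k : ℕ) (hk : 1 ≤ k) :
    (∀ θ : ℝ, 1 / 2 ≤ θ → θ < 1 →
      (ZetaZeros θ ↔ ∀ ε : ℝ, 0 < ε → ∃ C : ℝ, ∀ x : ℝ, 1 ≤ x →
        |S k x - x ^ k / (k.factorial : ℝ)| ≤ C * x ^ ((k : ℝ) - 1 + θ + ε))) ∧
    (∀ (q : ℕ) [NeZero q] (θ : ℝ), Squarefree q → 1 / 2 ≤ θ → θ < 1 →
      (LZeros q θ ↔ ∀ ε : ℝ, 0 < ε → ∃ C : ℝ, ∀ (c : ℕ) (x : ℝ), 1 ≤ x →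
        |SAP k q c x - dens k q c * (x ^ k / (k.factorial : ℝ))| ≤
          C * x ^ ((k : ℝ) - 1 + θ + ε))) ∧
    ((∃ θ : ℝ, θ < 1 ∧ ZetaZeros θ) ↔ ∃ δ : ℝ, 0 < δ ∧ ∃ C : ℝ, ∀ x : ℝ, 1 ≤ x →
      |S k x - x ^ k / (k.factorial : ℝ)| ≤ C * x ^ ((k : ℝ) - δ)) ∧
    (∀ (q : ℕ) [NeZero q], (∃ θ : ℝ, θ < 1 ∧ LZeros q θ) ↔
      ∃ δ : ℝ, 0 < δ ∧ ∃ C : ℝ, ∀ (c : ℕ) (x : ℝ), 1 ≤ x →
        |SAP k q c x - dens k q c * (x ^ k / (k.factorial : ℝ))| ≤ C * x ^ ((k : ℝ) - δ)) ∧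
    ((∃ θ : ℝ, θ < 1 ∧ ∀ (q : ℕ) [NeZero q], LZeros q θ) ↔
      ∃ δ : ℝ, 0 < δ ∧ ∀ (q : ℕ) [NeZero q], ∃ C : ℝ, ∀ (c : ℕ) (x : ℝ), 1 ≤ x →
        |SAP k q c x - dens k q c * (x ^ k / (k.factorial : ℝ))| ≤ C * x ^ ((k : ℝ) - δ)) :=
  ⟨fun θ => exact_zeta fwd2Stmt k θ hk, fun q _ θ => exact_sqf fwd2Stmt k q θ hk,
    q1_iff fwd2Stmt k hk, fun q _ => q_iff fwd2Stmt k q hk, q2_iff fwd2Stmt k hk⟩

end Vale.Agent.Results.P026.AverageGoldbach
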