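import Vale.Agent.P026.H832.F5

/-!
# P026: the quasi-Riemann hypothesis is invariant under differentiation

`xi s = s (s - 1) π^{-s/2} Γ(s/2) ζ(s)` (entire) and
`Lam χ s = q^{s/2} Λ(s, χ)`, the completed `L`-function (entire for primitive `χ ≠ 1`).

For every `k`, the quasi-Riemann hypothesis holds if and only if the `k`-th derivative of `ξ` has no
zeros in some half-plane `Re s > σ0`, `σ0 < 1`; if and only if the `k`-th derivative of `ζ` itself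
has no zeros with `Re s < δ`, `|Im s| ≥ T`, for some `δ > 0` and `T` (the quasi version of Speiser's
criterion, for derivatives of every order).  The same (first criterion) for the uniform question over
all Dirichlet `L`-functions.  The sharp forms compare the exact abscissae at large heights
(conductors) for every `σ0 ≥ 1/2`.
-/

namespace Vale.Agent.Results.P026.DerivativeInvariance

open Vale.Agent.P026.H832

theorem result :
    -- Q1 and the derivatives of `ξ`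
    (∀ k : ℕ,
      (∃ σ0 < (1:ℝ), ∀ s : ℂ, σ0 < s.re → riemannZeta s ≠ 0) ↔
      (∃ σ0 < (1:ℝ), ∀ s : ℂ, σ0 < s.re → iteratedDeriv k xi s ≠ 0)) ∧
    -- Q2 and the derivatives of all completed `L`-functions
    (∀ k : ℕ,
      (∃ σ0 < (1:ℝ), ∀ (q : ℕ) [NeZero q] (χ : DirichletCharacter ℂ q) (s : ℂ),
        σ0 < s.re → s.re < 1 → χ.LFunction s ≠ 0) ↔
      (∃ σ0 < (1:ℝ), (∀ s : ℂ, σ0 < s.re → iteratedDeriv k xi s ≠ 0) ∧
        ∀ (q : ℕ) [NeZero q] (χ : DirichletCharacter ℂ q), χ.IsPrimitive → χ ≠ 1 →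
          ∀ s : ℂ, σ0 < s.re → iteratedDeriv k (Lam χ) s ≠ 0)) ∧
    -- Q1 and the derivatives of `ζ` on the left
    (∀ k : ℕ,
      (∃ σ0 < (1:ℝ), ∀ s : ℂ, σ0 < s.re → riemannZeta s ≠ 0) ↔
      (∃ δ > (0:ℝ), ∃ T : ℝ, ∀ s : ℂ, s.re < δ → T ≤ |s.im| → iteratedDeriv k riemannZeta s ≠ 0)) ∧
    -- the sharp forms
    (∀ (k : ℕ) (σ0 : ℝ), 1/2 ≤ σ0 → σ0 < 2 →
      ((∀ σ : ℝ, σ0 < σ → ∃ T : ℝ, ∀ s : ℂ, σ ≤ s.re → T ≤ |s.im| → riemannZeta s ≠ 0) ↔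
        (∀ σ : ℝ, σ0 < σ → ∃ T : ℝ, ∀ s : ℂ, σ ≤ s.re → T ≤ |s.im| → iteratedDeriv k xi s ≠ 0)) ∧
      ((∀ σ : ℝ, σ0 < σ → ∃ T : ℝ, ∀ s : ℂ, σ ≤ s.re → T ≤ |s.im| → riemannZeta s ≠ 0) ↔
        (∀ σ : ℝ, σ0 < σ → ∃ T : ℝ, ∀ s : ℂ, s.re ≤ 1 - σ → T ≤ |s.im| →
          iteratedDeriv k riemannZeta s ≠ 0)) ∧
      ((∀ σ : ℝ, σ0 < σ → ∃ C : ℝ, ∀ (q : ℕ) [NeZero q] (χ : DirichletCharacter ℂ q),
          χ.IsPrimitive → χ ≠ 1 → ∀ s : ℂ, σ ≤ s.re → C ≤ q * (|s.im| + 1) →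
            χ.LFunction s ≠ 0) ↔
        (∀ σ : ℝ, σ0 < σ → ∃ C : ℝ, ∀ (q : ℕ) [NeZero q] (χ : DirichletCharacter ℂ q),
          χ.IsPrimitive → χ ≠ 1 → ∀ s : ℂ, σ ≤ s.re → C ≤ q * (|s.im| + 1) →
            iteratedDeriv k (Lam χ) s ≠ 0))) :=
  ⟨quasi_xi', quasi_chi', quasi_left, fun k _ h0 h1 =>
    ⟨sharp_xi k h0 h1, sharp_left k h0 h1, sharp_chi k h0 h1⟩⟩

end Vale.Agent.Results.P026.DerivativeInvariance
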