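import Vale.Agent.P026.H147.Back
import Vale.Agent.P026.H147.AE

/-!
# Frequency localisation of the quasi-Riemann hypothesis

The quasi-Riemann hypothesis (for all Dirichlet `L`-functions, uniformly) can be read off from the
Möbius exponential sums along a sequence of rational frequencies which converges to an arbitrarily
prescribed real number, and also from a power saving on a set of frequencies of second category.
-/

set_option linter.all false

open Finset Complex Filter MeasureTheory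
open scoped ArithmeticFunction.Moebius

namespace Vale.Agent.P026.H147

lemma Saves.continues {θ α : ℝ} (h : Saves θ α) (hθ : 0 ≤ θ) (hθ1 : θ ≤ 1) : Continues θ α := by
  obtain ⟨F, hF1, hF2⟩ := h.continuation hθ hθ1
  exact ⟨F, hF1, fun s hs => hF2 s hs⟩

lemma Continues.mono {θ θ' α : ℝ} (h : Continues θ α) (hθ : θ ≤ θ') : Continues θ' α := by
  obtain ⟨F, hF1, hF2⟩ := h
  exact ⟨F, hF1.mono fun s hs => lt_of_le_of_lt hθ hs, hF2⟩

/-- One frequency for each prime of a thick set controls the zeta function. -/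
theorem zeta_sparse {P : Set ℕ} (hP : Thick P) {b : ℕ → ℤ} (hb : ∀ r ∈ P, ¬ (r : ℤ) ∣ b r)
    {θ : ℝ} (hθ : 19 / 20 ≤ θ) (H : ∀ r ∈ P, Continues θ (b r / r)) (s : ℂ) (hs : θ < s.re) :
    riemannZeta s ≠ 0 := by
  by_cases hs1 : 1 ≤ s.re
  · exact riemannZeta_ne_zero_of_one_le_re hs1
  · push Not at hs1
    have h1 : (1 : DirichletCharacter ℂ 1).IsPrimitive := DirichletCharacter.isPrimitive_one_level_one
    have h2 := sparse_primitive hP hθ h1 ⟨0, fun r _ hr a => ?_⟩ s hs hs1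
    · rwa [DirichletCharacter.LFunction_modOne_eq] at h2
    · haveI : NeZero r := ⟨(hP.1 r hr).ne_zero⟩
      refine ⟨b r, ?_, ?_⟩
      · rw [Ne, ZMod.intCast_zmod_eq_zero_iff_dvd]
        exact hb r hr
      · obtain ⟨F, hF1, hF2⟩ := H r hr
        refine ⟨F, hF1, fun s hs => (hF2 s hs).trans ?_⟩
        have ha : a = 0 := Subsingleton.elim _ _
        have h3 : ((a.val : ℤ) : ℝ) / ((1 : ℕ) : ℝ) + (b r : ℝ) / r = (b r : ℝ) / r := by
          rw [ha]; simp
        rw [h3]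
        unfold DS ex
        push_cast
        rfl

theorem level_iff {P : Set ℕ} (hP : Thick P) {x ε θ : ℝ} (hε : 0 < ε) (hθ : 19 / 20 ≤ θ) :
    ZeroFree θ ↔ ∀ α ∈ near P x, (α : ℝ) < x + ε → Continues θ α := by
  constructor
  · intro h α _ _
    exact continues_of_zeroFree h α
  · intro H q _ χ s hs1 hs2
    exact near_global hP hε hθ H q χ s hs1 hs2

end Vale.Agent.P026.H147

open Vale.Agent.P026.H147

theorem Vale.Agent.Results.P026.FreqLocal.result :
    (∀ P : Set ℕ, Thick P → ∀ b : ℕ → ℤ, (∀ r ∈ P, ¬ (r : ℤ) ∣ b r) → ∀ θ : ℝ, 19 / 20 ≤ θ →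
      (∀ r ∈ P, Continues θ (b r / r)) → ∀ s : ℂ, θ < s.re → riemannZeta s ≠ 0) ∧
    (∀ P : Set ℕ, Thick P → ∀ x ε θ : ℝ, 0 < ε → 19 / 20 ≤ θ →
      (ZeroFree θ ↔ ∀ α ∈ near P x, (α : ℝ) < x + ε → Continues θ α)) ∧
    List.TFAE [
      UniformQuasiRH,
      ∃ θ C : ℝ, θ < 1 ∧ ∀ (α : ℝ) (N : ℕ), 1 ≤ N → ‖mobSum α N‖ ≤ C * (N : ℝ) ^ θ,
      SavingSet = Set.univ,
      ¬ IsMeagre SavingSet,
      ∃ (P : Set ℕ) (x ε θ : ℝ), Thick P ∧ 0 < ε ∧ θ < 1 ∧
        ∀ α ∈ near P x, (α : ℝ) < x + ε → Saves θ α] ∧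
    (∀ θ α : ℝ, 0 ≤ θ → θ ≤ 1 → Saves θ α → Continues θ α) ∧
    Thick {r : ℕ | r.Prime} ∧
    (∀ (P : Set ℕ) (x ε : ℝ), 0 < ε → {α : ℚ | α ∈ near P x ∧ x + ε ≤ (α : ℝ)}.Finite) ∧
    (∀ᵐ α : ℝ, Saves (4 / 5) α) := by
  refine ⟨fun P hP b hb θ hθ H s hs => zeta_sparse hP hb hθ H s hs,
    fun P hP x ε θ hε hθ => level_iff hP hε hθ, ?_,
    fun θ α h0 h1 h => h.continues h0 h1, thick_primes, near_finite, ae_saves⟩
  tfae_have 1 → 2 := uniform_bound
  tfae_have 2 → 3 := by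
    rintro ⟨θ, C, hθ, h⟩
    exact Set.eq_univ_of_forall fun α => ⟨θ, hθ, C, h α⟩
  tfae_have 3 → 4 := by
    intro h
    rw [h]
    exact not_isMeagre_of_isOpen isOpen_univ Set.univ_nonempty
  tfae_have 4 → 1 := uniform_of_nonmeagre
  tfae_have 2 → 5 := by
    rintro ⟨θ, C, hθ, h⟩
    exact ⟨{r : ℕ | r.Prime}, 0, 1, θ, thick_primes, one_pos, hθ, fun α _ _ => ⟨C, h α⟩⟩
  tfae_have 5 → 1 := by
    rintro ⟨P, x, ε, θ, hP, hε, hθ, H⟩
    refine ⟨max θ (19 / 20), max_lt hθ (by norm_num), (level_iff (x := x) hP hε (le_max_right _ _)).2 ?_⟩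
    intro α hα h1
    exact ((H α hα h1).mono (le_max_left _ _)).continues
      (le_trans (by norm_num) (le_max_right θ (19 / 20))) (max_le hθ.le (by norm_num))
  tfae_finish
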