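import Vale.Agent.P026.TP.M3
import Vale.Agent.P026.TP.M24
import Vale.Agent.P026.TP.M5
import Vale.Agent.P026.TP.M6b
import Vale.Agent.P026.TP.M7
import Vale.Agent.P026.TP.M8
import Vale.Agent.P026.TP.M9
import Vale.Agent.P026.TP.S2
import Vale.Agent.P026.TP.Fwd2
import Vale.Agent.P026.TP.Conv2

/-!
# P026: the uniform quasi-Riemann hypothesis and the ternary and binary Goldbach problems

The uniform quasi-Riemann hypothesis (question Q2) is equivalent to a power saving in the error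
term of Vinogradov's asymptotic formula for `r3 n = ∑_{a + b + c = n} Λ(a) Λ(b) Λ(c)`, and to a
power saving in the mean square of the error term in the asymptotic formula for
`r2 n = ∑_{a + b = n} Λ(a) Λ(b)`. Each saving bounds the real parts of the zeros of every
Dirichlet `L`-function explicitly.
-/

open Finset Vale.Agent.P026.TP

namespace Vale.Agent.Results.P026.ThreePrimes

theorem forwardStmt : ForwardStmt :=
  forward_of (supStmt minorStmt) compareStmt modelSqStmt modelStmt singularStmt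

theorem threePrimes_mono {δ δ' : ℝ} (h : δ' ≤ δ) (hT : ThreePrimes δ) : ThreePrimes δ' := by
  obtain ⟨C, hC⟩ := hT
  refine ⟨|C|, fun n hn => (hC n hn).trans ?_⟩
  have hn1 : (1 : ℝ) ≤ n := by exact_mod_cast hn
  calc C * (n : ℝ) ^ (2 - δ) ≤ |C| * (n : ℝ) ^ (2 - δ) :=
        mul_le_mul_of_nonneg_right (le_abs_self _) (by positivity)
    _ ≤ |C| * (n : ℝ) ^ (2 - δ') :=
        mul_le_mul_of_nonneg_left (Real.rpow_le_rpow_of_exponent_le hn1 (by linarith))
          (abs_nonneg _)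

theorem binaryMean_mono {δ δ' : ℝ} (h : δ' ≤ δ) (hT : BinaryMean δ) : BinaryMean δ' := by
  obtain ⟨C, hC⟩ := hT
  refine ⟨|C|, fun n hn => (hC n hn).trans ?_⟩
  have hn1 : (1 : ℝ) ≤ n := by exact_mod_cast hn
  calc C * (n : ℝ) ^ (3 - δ) ≤ |C| * (n : ℝ) ^ (3 - δ) :=
        mul_le_mul_of_nonneg_right (le_abs_self _) (by positivity)
    _ ≤ |C| * (n : ℝ) ^ (3 - δ') :=
        mul_le_mul_of_nonneg_left (Real.rpow_le_rpow_of_exponent_le hn1 (by linarith))
          (abs_nonneg _)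

theorem result :
    List.TFAE [UniformQuasiRH, ∃ δ : ℝ, 0 < δ ∧ ThreePrimes δ, ∃ δ : ℝ, 0 < δ ∧ BinaryMean δ] ∧
    (∀ δ : ℝ, 0 < δ → δ ≤ 1 / 2 → ThreePrimes δ →
      ∀ (q : ℕ) [NeZero q] (χ : DirichletCharacter ℂ q) (s : ℂ),
        0 < s.re → s.re < 1 → χ.LFunction s = 0 →
          s.re ≤ 1 - δ / 3 ∧ (Squarefree q → s.re ≤ 1 - δ)) ∧
    ∀ δ : ℝ, 0 < δ → δ ≤ 1 / 2 → BinaryMean δ →
      ∀ (q : ℕ) [NeZero q] (χ : DirichletCharacter ℂ q) (s : ℂ),
        0 < s.re → s.re < 1 → χ.LFunction s = 0 →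
          s.re ≤ 1 - δ / 4 ∧ (Squarefree q → s.re ≤ 1 - δ / 2) := by
  have hconv := converseStmt singularStmt
  have hconv2 := converse2Stmt singular2Stmt
  refine ⟨?_, hconv, hconv2⟩
  tfae_have 1 → 2 := forwardStmt
  tfae_have 1 → 3 := forward2Stmt
  tfae_have 2 → 1 := by
    rintro ⟨δ, hδ, hT⟩
    set δ' : ℝ := min δ (1 / 2) with hδ'
    have h0 : 0 < δ' := lt_min hδ (by norm_num)
    have hT' : ThreePrimes δ' := threePrimes_mono (min_le_left _ _) hT
    refine ⟨1 - δ' / 3, by linarith, ?_⟩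
    intro q _ χ s hs0 hs1 hL
    exact (hconv δ' h0 (min_le_right _ _) hT' q χ s hs0 hs1 hL).1
  tfae_have 3 → 1 := by
    rintro ⟨δ, hδ, hT⟩
    set δ' : ℝ := min δ (1 / 2) with hδ'
    have h0 : 0 < δ' := lt_min hδ (by norm_num)
    have hT' : BinaryMean δ' := binaryMean_mono (min_le_left _ _) hT
    refine ⟨1 - δ' / 4, by linarith, ?_⟩
    intro q _ χ s hs0 hs1 hL
    exact (hconv2 δ' h0 (min_le_right _ _) hT' q χ s hs0 hs1 hL).1
  tfae_finish

end Vale.Agent.Results.P026.ThreePrimes
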